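import Vale.Agent.P352G11.And
import Vale.Agent.P352X.EG.SG

/-!
# P352G, row NRT: the modular conjugation and the null rotations
-/

set_option linter.all false

open Filter Topology

noncomputable section

namespace Vale.Agent.P352G11

open Vale.Agent.P352 Vale.Agent.P352.GF Vale.Agent.P352.BW Vale.Agent.P352.H246 Vale.Agent.P352.H496
open Vale.Agent.P352.H15 Vale.Agent.P352X Vale.Agent.P352G Vale.Agent.P352.H755
open Vale.Agent.P352.H746 (nrt sim_nrt isLor_nrt nrt_fix)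
open Vale.Agent.P352.BW.T (bq mat_ext)
open Vale.Agent.P132 (ModData)
open UniformSpace (Completion)

variable {D : Type*} [NormedAddCommGroup D] [InnerProductSpace ℂ D] [GrD D] {Q : Theory D}
  {A : (V → V) → D → D} {𝒜 : Set V → VonNeumannAlgebra (Completion D)} {a w : V}

theorem ug_an (R : RepZ Q A) {L L' : Ix → V} (ha : IsNull a) (hL : IsLor L) (hL' : IsLor L')
    (h : AN a L) (h' : AN a L') :
    Ug Q 1 L 0 * Ug Q 1 L' 0 = Ug Q 1 (fun m => sim 1 L 0 (L' m)) 0 := EG.SGx.dext fun v => by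
  rw [ContinuousLinearMap.mul_apply, Grp.coe one_pos hL', Grp.coe one_pos hL,
    Grp.coe one_pos (ue_lor hL hL'),
    R.mul 1 L 0 1 L' 0 v one_pos one_pos hL hL' (.inr (.inr ⟨a, ha, h, h'⟩)), one_mul, Grp.sim_zero]

/-- the one parameter groups of null rotations -/
def Wn (Q : Theory D) (a w : V) (u : ℝ) : Completion D →L[ℂ] Completion D :=
  Ug Q 1 (nrt a (u • w)) 0

theorem lor_n (ha : IsNull a) (hw : GF.mdot a w = 0) (u : ℝ) : IsLor (nrt a (u • w)) :=
  isLor_nrt ha (by rw [md_smul, hw, mul_zero])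

theorem wn_add (R : RepZ Q A) (ha : IsNull a) (hw : GF.mdot a w = 0) (t u : ℝ) :
    Wn Q a w (t + u) = Wn Q a w t * Wn Q a w u := by
  rw [Wn, Wn, Wn, ug_an R ha (lor_n ha hw t) (lor_n ha hw u) (P352G95.an_nrt _ _)
    (P352G95.an_nrt _ _), nrt_add ha (by rw [md_smul, hw, mul_zero])
      (by rw [md_smul, hw, mul_zero]), add_smul]

theorem wn_zero : Wn Q a w 0 = 1 := by rw [Wn, zero_smul, nrt_zero, Grp.ug_one]

theorem wn_cont (R : RepZ Q A) (ha : IsNull a) (hw : GF.mdot a w = 0) (z : Completion D) :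
    Continuous fun t => Wn Q a w t z := by
  have hi : ∀ t x y, dist (Wn Q a w t x) (Wn Q a w t y) = dist x y := fun t x y => by
    rw [dist_eq_norm, dist_eq_norm]
    exact SN.norm_of_inn (Grp.ug_inner one_pos (lor_n ha hw t) 0) x y
  have h0 : ∀ v : D, Tendsto (fun t => Wn Q a w t v) (𝓝 0) (𝓝 v) := fun v => by
    have h1 := R.der (fun _ => 1) (fun e => nrt a (e • w)) (fun _ => 0)
      (fun x n => deriv (fun e : ℝ => sim 1 (nrt a (e • w)) 0 x n) 0) v rfl
      (by rw [zero_smul, nrt_zero]) rfl (fun e => ⟨one_pos, lor_n ha hw e⟩) fun n x => by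
        refine DifferentiableAt.hasDerivAt ?_
        simp only [sim_nrt, md_smul, md_smul_l, Pi.add_apply, Pi.sub_apply, Pi.smul_apply,
          smul_eq_mul]
        fun_prop
    have h2 := ((Completion.continuous_coe D).tendsto _).comp h1.continuousAt.tendsto
    simp only [Function.comp_def, ← Grp.coe one_pos (lor_n ha hw _)] at h2
    have h3 : Ug Q 1 (nrt a ((0 : ℝ) • w)) 0 (v : Completion D) = v := by
      rw [zero_smul, nrt_zero, Grp.ug_one]
      rfl
    rwa [h3] at h2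
  have h1 : ∀ z, Tendsto (fun t => Wn Q a w t z) (𝓝 0) (𝓝 z) := fun z => by
    refine Metric.tendsto_nhds.2 fun ε hε => ?_
    obtain ⟨v, hv⟩ := Completion.denseRange_coe.exists_dist_lt z (show 0 < ε / 3 by positivity)
    filter_upwards [Metric.tendsto_nhds.1 (h0 v) (ε / 3) (by positivity)] with t ht
    have b := dist_triangle4 (Wn Q a w t z) (Wn Q a w t v) v z
    rw [hi, dist_comm (v : Completion D) z] at b
    linarith
  refine continuous_iff_continuousAt.2 fun t => ?_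
  have h2 : Tendsto (fun u => u - t) (𝓝 t) (𝓝 0) := by
    simpa using (tendsto_id (x := 𝓝 t)).sub_const t
  refine ((h1 (Wn Q a w t z)).comp h2).congr fun u => ?_
  show (Wn Q a w (u - t) * Wn Q a w t) z = _
  rw [← wn_add R ha hw, sub_add_cancel]

theorem rot (hS : P352G44.SOFT (Completion D)) (hB : BWG D) (h : LNmZ Q A 𝒜) (hG : TfGenZ Q)
    (E : ModData (𝒜 (Wdg va vb 0)) (om Q)) (ha : IsNull a) (hw : GF.mdot a w = 0)
    (h1 : jr a = -a) (h2 : jr w = w) (h3 : ∀ t, AN a (bq va vb t)) {κ : ℝ}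
    (hκ : κ = 2 * Real.pi ∨ κ = -(2 * Real.pi))
    (h4 : ∀ t u : ℝ, (fun m => sim 1 (bq va vb t) 0 (nrt a (u • w) m)) =
      fun m => sim 1 (nrt a ((Real.exp (κ * t) * u) • w)) 0 (bq va vb t m))
    (h5 : ∃ x ∈ Wdg va vb 0, sim 1 (nrt a w) 0 x ∈ Wdg va vb 0) :
    P352G44.Jx E 1 (nrt a w) 0 := by
  intro z
  have R := h.toRepZ
  have lb := T.s_lor null_va null_vb md_ab
  let g : ℝ → EG.Sh h.cg := fun u => ⟨⟨1, nrt a (u • w), 0, one_pos, lor_n ha hw u⟩, false⟩
  have hu : ∀ u, Wn Q a w u ∈ unitary (Completion D →L[ℂ] Completion D) := fun u =>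
    EG.SGx.uni (g u)
  have eU : ∀ t, E.U t = Ug Q 1 (bq va vb t) 0 := fun t => by
    ext x
    rw [Ug_apply _ one_pos (lb t)]
    exact hB Q A 𝒜 h hG va vb t _ E x null_va null_vb md_ab (lb t) (sim_bq va vb t)
  have st : Wn Q a w (-1) = star (Wn Q a w 1) := by
    rw [← one_mul (Wn Q a w (-1)), ← (hu 1).1, mul_assoc, ← wn_add R ha hw, add_neg_cancel, wn_zero,
      mul_one]
  have key := hS _ _ E (Wn Q a w) κ 1 hκ hu (wn_add R ha hw) (wn_cont R ha hw)
    (fun u => EG.SGx.vac (g u)) (fun t u => by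
      rw [eU, Wn, Wn, ug_an R ha (lb t) (lor_n ha hw _) (h3 t) (P352G95.an_nrt _ _),
        ug_an R ha (lor_n ha hw _) (lb t) (P352G95.an_nrt _ _) (h3 t), h4]) ?_ z
  · rw [JCa.jr_zero, jL_nrt h1 h2]
    simpa only [Wn, one_smul, neg_smul] using key
  · refine (EG.SGx.rs (c := h.cg) (O := Wdg va vb 0 ∩ (g 1).act ⁻¹' Wdg va vb 0)
      ((EB.open_Wdg _ _ _).inter ((EB.open_Wdg _ _ _).preimage (g 1).cont)) ?_).mono ?_
    · obtain ⟨x, x1, x2⟩ := h5
      refine ⟨x, x1, ?_⟩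
      show sim 1 (nrt a ((1 : ℝ) • w)) 0 x ∈ Wdg va vb 0
      rwa [one_smul]
    · rintro _ ⟨X, hX, rfl⟩
      refine ⟨X, h.mono _ _ Set.inter_subset_left X hX, ?_, rfl⟩
      rw [st]
      exact h.mono _ _ (by rintro _ ⟨x, hx, rfl⟩; exact hx.2) _ (EG.SGx.alg1 (g 1) hX)

/-- row NRT -/
theorem nrt_row (hS : P352G44.SOFT (Completion D)) (hB : BWG D) : P352G44.NRT D := by
  intro Q A 𝒜 h hG E w h1 h2
  have hj := jr_tr h1 h2
  have w1 : GF.mdot w va = 0 := by rw [md_comm, h1]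
  have w2 : GF.mdot w vb = 0 := by rw [md_comm, h2]
  have m1 : ∀ u : ℝ, GF.mdot va (u • w) = 0 := fun u => by rw [md_smul, h1, mul_zero]
  have m2 : ∀ u : ℝ, GF.mdot vb (u • w) = 0 := fun u => by rw [md_smul, h2, mul_zero]
  have ba : GF.mdot vb va = 1 := by rw [md_comm]; exact md_ab
  have p1 := le_abs_self (GF.mdot w w)
  have p2 := neg_abs_le (GF.mdot w w)
  refine ⟨rot hS hB h hG E null_va h1 jr_va hj (an_bq _ _) (.inr rfl) (fun t u => ?_) ?_,
    rot hS hB h hG E null_vb h2 jr_vb hj (an_bq' _ _) (.inl rfl) (fun t u => ?_) ?_⟩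
  · rw [bq_nrt null_va null_vb md_ab (m1 u) (m2 u), smul_smul, neg_mul]
  · refine ⟨(2 * |GF.mdot w w| + 1) • va - vb, ?_, ?_⟩ <;>
      simp only [Wdg, Set.mem_setOf_eq, sub_zero, sim_nrt, md_add, md_sub, md_smul, h1, h2, w1, w2,
        null_va.1, null_vb.1, md_ab, ba] <;> constructor <;> linarith
  · rw [← neg_neg t, ← T.s_bq_swap, bq_nrt null_vb null_va ba (m2 u) (m1 u), smul_smul, neg_neg,
      mul_neg, neg_neg]
  · refine ⟨va - (2 * |GF.mdot w w| + 1) • vb, ?_, ?_⟩ <;>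
      simp only [Wdg, Set.mem_setOf_eq, sub_zero, sim_nrt, md_add, md_sub, md_smul, h1, h2, w1, w2,
        null_va.1, null_vb.1, md_ab, ba] <;> constructor <;> linarith

end Vale.Agent.P352G11

end
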