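import Vale.Agent.P352G95.Genl
import Vale.Agent.P352G44.Spec
import Vale.Agent.P352X.R.JC.A1
import Vale.Agent.P352.BW.T.S

/-!
# P352G, row JUG: the decomposition of the groups `AN`
-/

set_option linter.all false

noncomputable section

namespace Vale.Agent.P352G11

open Vale.Agent.P352 Vale.Agent.P352.GF Vale.Agent.P352.BW Vale.Agent.P352.H246 Vale.Agent.P352.H496
open Vale.Agent.P352.H15 Vale.Agent.P352X Vale.Agent.P352G Vale.Agent.P352.H755
open Vale.Agent.P352.H746 (nrt sim_nrt isLor_nrt nrt_fix)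
open Vale.Agent.P352.BW.T (bq mat_ext)

variable {a b w w' : V} {L L' : Ix → V}

theorem sim_bq (a b : V) (t : ℝ) (x : V) : sim 1 (bq a b t) 0 x =
    x + ((Real.exp (-(2 * Real.pi * t)) - 1) * GF.mdot b x) • a +
      ((Real.exp (2 * Real.pi * t) - 1) * GF.mdot a x) • b := sim_bst _ _ _ _ x

theorem an_bq (a b : V) (t : ℝ) : AN a (bq a b t) := P352G95.an_bst _ _ _ _

theorem an_bq' (a b : V) (t : ℝ) : AN b (bq a b t) := by
  rw [← neg_neg t, ← T.s_bq_swap]
  exact an_bq _ _ _

/-- an element of `AN a` is a boost times a null rotation -/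
theorem and_dec (ha : IsNull a) (hb : IsNull b) (hab : GF.mdot a b = 1) (hL : IsLor L)
    (h : AN a L) : ∃ (t : ℝ) (w : V), GF.mdot a w = 0 ∧ GF.mdot b w = 0 ∧
      L = fun m => sim 1 (bq a b t) 0 (nrt a w m) := by
  obtain ⟨c, hc⟩ := h a ha.1
  have h1 : sim 1 L 0 a = (1 + c) • a := by rw [hc, add_smul, one_smul]
  have hl : 0 < 1 + c := by
    have := (isNull_lor hL ha).2
    rw [h1, Pi.smul_apply, smul_eq_mul] at this
    exact (mul_pos_iff_of_pos_right ha.2).1 this
  generalize 1 + c = l at h1 hl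
  have hba : GF.mdot b a = 1 := by rw [md_comm]; exact hab
  obtain ⟨v, hv⟩ : ∃ v, v = sim 1 L 0 b := ⟨_, rfl⟩
  have av : GF.mdot a v = l⁻¹ := by
    have := mdot_sim hL a b
    rw [h1, md_smul_l, hab, ← hv] at this
    exact eq_inv_of_mul_eq_one_right this
  have va' : GF.mdot v a = l⁻¹ := by rw [md_comm]; exact av
  have vv : GF.mdot v v = 0 := by rw [hv, mdot_sim hL, hb.1]
  have e1 : Real.exp (-(2 * Real.pi * (-Real.log l / (2 * Real.pi)))) = l := by
    rw [mul_div_cancel₀ _ (by positivity), neg_neg, Real.exp_log hl]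
  have e2 : Real.exp (2 * Real.pi * (-Real.log l / (2 * Real.pi))) = l⁻¹ := by
    rw [mul_div_cancel₀ _ (by positivity), Real.exp_neg, Real.exp_log hl]
  have vb' : GF.mdot v b = GF.mdot b v := md_comm _ _
  refine ⟨-Real.log l / (2 * Real.pi), (2⁻¹ : ℝ) • (v - l⁻¹ • b - GF.mdot b v • a), ?_, ?_, ?_⟩
  · simp only [md_smul, md_sub, av, hab, ha.1]
    ring
  · simp only [md_smul, md_sub, hba, hb.1]
    ring
  · refine mat_ext fun z => ?_
    obtain ⟨d, hd⟩ := h (z - GF.mdot a z • b) (by rw [md_sub, md_smul, hab]; ring)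
    have h2 := mdot_sim hL b (z - GF.mdot a z • b)
    rw [hd, ← hv] at h2
    simp only [md_add, md_sub, md_smul, va', hb.1, vb'] at h2
    have h3 : d = l * (GF.mdot b z - GF.mdot v z + GF.mdot a z * GF.mdot b v) := by
      have hl' := mul_inv_cancel₀ hl.ne'
      linear_combination l * h2 - d * hl'
    rw [simL_sub, simL_smul, ← hv, sub_eq_iff_eq_add] at hd
    rw [hd, Kin.sim_comp, sim_bq, e1, e2, sim_nrt, h3]
    simp only [md_add, md_sub, md_smul, md_add_l, md_sub_l, md_smul_l, av, va', vv, hab, hba, ha.1,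
      hb.1, vb']
    funext n
    simp only [Pi.add_apply, Pi.sub_apply, Pi.smul_apply, smul_eq_mul]
    field_simp
    ring

/-- row AND -/
theorem and_row : P352G44.AND := fun _ _ _ => and_dec

theorem jr_add (x y : V) : jr (x + y) = jr x + jr y := jrL.map_add x y
theorem jr_sub (x y : V) : jr (x - y) = jr x - jr y := jrL.map_sub x y
theorem jr_smul (t : ℝ) (x : V) : jr (t • x) = t • jr x := jrL.map_smul t x
theorem jr_va : jr va = -va := null_ext (by simp) (by simp) (by simp)
theorem jr_vb : jr vb = -vb := null_ext (by simp) (by simp) (by simp)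

theorem jr_tr (h1 : GF.mdot va w = 0) (h2 : GF.mdot vb w = 0) : jr w = w :=
  null_ext (by rw [al_jr, show al w = 0 from h2, neg_zero])
    (by rw [be_jr, show be w = 0 from h1, neg_zero]) (tx_jr _)

theorem jL_ext (h : ∀ z, jr (sim 1 L 0 z) = sim 1 L' 0 (jr z)) : jL L = L' := by
  refine mat_ext fun x => ?_
  have e := JCa.sim_jL L 1 0 (jr x)
  rw [JCa.jr_zero, jr_jr] at e
  rw [e, h, jr_jr]

theorem sim_jL0 (L : Ix → V) (z : V) : sim 1 (jL L) 0 (jr z) = jr (sim 1 L 0 z) := by
  rw [← JCa.sim_jL, JCa.jr_zero]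

theorem jL_cm (L L' : Ix → V) :
    jL (fun m => sim 1 L 0 (L' m)) = fun m => sim 1 (jL L) 0 (jL L' m) :=
  jL_ext fun z => by rw [Kin.sim_comp, Kin.sim_comp, sim_jL0, sim_jL0]

theorem md_jr' (x y : V) : GF.mdot x (jr y) = GF.mdot (jr x) y := by
  rw [← md_jr (jr x), jr_jr]

theorem md_neg (x y : V) : GF.mdot x (-y) = -GF.mdot x y := by
  rw [← neg_one_smul ℝ y, md_smul, neg_one_mul]

theorem md_neg_l (x y : V) : GF.mdot (-x) y = -GF.mdot x y := by
  rw [md_comm, md_neg, md_comm]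

theorem jL_bq (t : ℝ) : jL (bq va vb t) = bq va vb t := jL_ext fun z => by
  rw [sim_bq, sim_bq, jr_add, jr_add, jr_smul, jr_smul, md_jr' va, md_jr' vb, jr_va, jr_vb, md_neg_l,
    md_neg_l]
  simp only [smul_neg, mul_neg, neg_smul]

theorem jL_nrt (ha : jr a = -a) (hw : jr w = w) : jL (nrt a w) = nrt a (-w) := jL_ext fun z => by
  rw [sim_nrt, sim_nrt, jr_sub, jr_add, jr_sub, jr_smul, jr_smul, jr_smul, md_jr' a, md_jr' (-w),
    ← neg_one_smul ℝ w, jr_smul, ha, hw, neg_one_smul, md_neg_l, md_neg_l, md_neg_l, md_neg]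
  simp only [smul_neg, mul_neg, neg_smul, neg_neg]

/-- the stabilizer of `va`, `vb` commutes with the reflection -/
theorem jL_stab (hL : IsLor L) (h1 : sim 1 L 0 va = va) (h2 : sim 1 L 0 vb = vb) : jL L = L :=
  jL_ext fun z => by
    have e1 : ∀ x, al (sim 1 L 0 x) = al x := fun x => by
      have := mdot_sim hL vb x
      rwa [h2] at this
    have e2 : ∀ x, be (sim 1 L 0 x) = be x := fun x => by
      have := mdot_sim hL va x
      rwa [h1] at this
    have e : ∀ x, jr x = x - (2 * al x) • va - (2 * be x) • vb := fun x =>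
      null_ext (by simp; ring) (by simp; ring) (by simp)
    rw [e, e, simL_sub, simL_sub, simL_smul, simL_smul, h1, h2, e1, e2]

theorem nrt_add (ha : IsNull a) (hw : GF.mdot a w = 0) (hw' : GF.mdot a w' = 0) :
    (fun m => sim 1 (nrt a w) 0 (nrt a w' m)) = nrt a (w + w') := mat_ext fun z => by
  have h1 : GF.mdot w a = 0 := by rw [md_comm, hw]
  have h2 : GF.mdot w' w = GF.mdot w w' := md_comm _ _
  rw [Kin.sim_comp, sim_nrt, sim_nrt, sim_nrt]
  simp only [md_add, md_sub, md_smul, md_add_l, hw, hw', h1, h2, ha.1]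
  funext n
  simp only [Pi.add_apply, Pi.sub_apply, Pi.smul_apply, smul_eq_mul]
  ring

theorem nrt_zero (a : V) : nrt a 0 = GF.one := mat_ext fun z => by
  have h : ∀ x, GF.mdot 0 x = 0 := fun x => by
    rw [← zero_smul ℝ (0 : V), md_smul_l, zero_mul]
  rw [sim_nrt, H26.sim_one0, h, h]
  simp

/-- the boosts scale the null rotations -/
theorem bq_nrt (ha : IsNull a) (hb : IsNull b) (hab : GF.mdot a b = 1) (h1 : GF.mdot a w = 0)
    (h2 : GF.mdot b w = 0) (t : ℝ) : (fun m => sim 1 (bq a b t) 0 (nrt a w m)) =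
      fun m => sim 1 (nrt a (Real.exp (-(2 * Real.pi * t)) • w)) 0 (bq a b t m) :=
  mat_ext fun z => by
    have hba : GF.mdot b a = 1 := by rw [md_comm]; exact hab
    have h3 : GF.mdot w a = 0 := by rw [md_comm, h1]
    have h4 : GF.mdot w b = 0 := by rw [md_comm, h2]
    have hp := Real.exp_pos (2 * Real.pi * t)
    rw [Kin.sim_comp, Kin.sim_comp, sim_nrt, sim_nrt, sim_bq, sim_bq, Real.exp_neg]
    simp only [md_add, md_sub, md_smul, md_smul_l, h1, h2, h3, h4, ha.1, hab, hba]
    funext n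
    simp only [Pi.add_apply, Pi.sub_apply, Pi.smul_apply, smul_eq_mul]
    field_simp
    ring

end Vale.Agent.P352G11

end
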